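import Mathlib

/-!
# P343: two-way nondeterministic finite automata

A two-way nondeterministic finite automaton with state set `Q` over the alphabet `σ` works on
the tape `⊢ w ⊣`.  Tape positions are natural numbers: position `0` carries the left endmarker,
positions `1, ..., |w|` carry the letters of `w`, and position `|w| + 1` carries the right
endmarker.  A configuration is a pair (state, position).  The head starts on the left endmarker
in the initial state; each transition depends on the current state and the scanned symbol only,
changes the state and moves the head left, right, or not at all, never beyond an endmarker.
The word is accepted when some finite computation reaches an accepting state.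
-/

namespace Vale.Agent.H92.P343

/-- Tape symbols: the left endmarker, a letter of the alphabet, the right endmarker. -/
inductive Sym (σ : Type) : Type where
  | lend : Sym σ
  | letter : σ → Sym σ
  | rend : Sym σ

/-- Head movements. -/
inductive Move : Type where
  | left : Move
  | stay : Move
  | right : Move

/-- A two-way nondeterministic finite automaton with states `Q` over the alphabet `σ`:
an initial state, a set of accepting states, and for every state and scanned symbol a set of
possible (new state, head move) pairs. -/
structure TwoNFA (σ : Type) (Q : Type) where
  start : Q
  accept : Q → Prop
  trans : Q → Sym σ → Set (Q × Move)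

/-- The symbol at position `i` of the tape `⊢ w ⊣`. -/
def tapeAt {σ : Type} (w : List σ) : ℕ → Sym σ
  | 0 => Sym.lend
  | (k + 1) =>
    match w[k]? with
    | some a => Sym.letter a
    | none => Sym.rend

/-- One step of the automaton `M` on the tape `⊢ w ⊣`, between configurations
(state, head position).  The head never moves left of position `0` (the left endmarker) and
never moves right of position `|w| + 1` (the right endmarker). -/
inductive Step {σ Q : Type} (M : TwoNFA σ Q) (w : List σ) : Q × ℕ → Q × ℕ → Prop where
  | left (q q' : Q) (i : ℕ) :
      (q', Move.left) ∈ M.trans q (tapeAt w (i + 1)) → Step M w (q, i + 1) (q', i)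
  | stay (q q' : Q) (i : ℕ) :
      (q', Move.stay) ∈ M.trans q (tapeAt w i) → Step M w (q, i) (q', i)
  | right (q q' : Q) (i : ℕ) :
      i ≤ w.length → (q', Move.right) ∈ M.trans q (tapeAt w i) → Step M w (q, i) (q', i + 1)

/-- `M` accepts `w` when some finite computation from the initial configuration
(initial state, head on the left endmarker) reaches an accepting state. -/
def TwoNFA.Accepts {σ Q : Type} (M : TwoNFA σ Q) (w : List σ) : Prop :=
  ∃ (q : Q) (i : ℕ), M.accept q ∧ Relation.ReflTransGen (Step M w) (M.start, 0) (q, i)

end Vale.Agent.H92.P343
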