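import Vale.Agent.H92.P343.Pump

/-!
# P343: a one-way nondeterministic automaton for the numerical semigroup generated by `m`, `m + 1`

The automaton has the `m + 2` states `0, ..., m + 1`.  The states `0, ..., m - 1` count the
letters read modulo `m`; from the state `m - 1` the automaton may also pass through the extra
state `m`, which makes the current round one letter longer.  On the right endmarker the state
`0` passes to the accepting state `m + 1`.  The word of length `k` is accepted exactly when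
`k = x * m + y * (m + 1)` for some `x`, `y`.
-/

namespace Vale.Agent.H92.P343

/-- The transitions of the example automaton. -/
def exTrans (m : ℕ) (q : Fin (m + 2)) (s : Sym Unit) : Set (Fin (m + 2) × Move) :=
  {x | match s with
    | Sym.lend => q.val = 0 ∧ x = (q, Move.right)
    | Sym.letter _ => x.2 = Move.right ∧
        ((q.val + 1 < m ∧ x.1.val = q.val + 1) ∨
         (q.val + 1 = m ∧ (x.1.val = 0 ∨ x.1.val = m)) ∨
         (q.val = m ∧ x.1.val = 0))
    | Sym.rend => q.val = 0 ∧ x.1.val = m + 1 ∧ x.2 = Move.stay}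

/-- The example automaton. -/
def exAut (m : ℕ) : TwoNFA Unit (Fin (m + 2)) where
  start := 0
  accept := fun q => q.val = m + 1
  trans := exTrans m

theorem exTrans_no_left (m : ℕ) (q : Fin (m + 2)) (s : Sym Unit) (q' : Fin (m + 2)) :
    (q', Move.left) ∉ exTrans m q s := by
  intro h
  cases s <;> simp [exTrans] at h

theorem exTrans_stay (m : ℕ) {q q' : Fin (m + 2)} {s : Sym Unit}
    (h : (q', Move.stay) ∈ exTrans m q s) : s = Sym.rend ∧ q.val = 0 ∧ q'.val = m + 1 := by
  cases s with
  | lend => simp [exTrans] at h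
  | letter u => simp [exTrans] at h
  | rend =>
    simp only [exTrans, Set.mem_ofPred_eq] at h
    exact ⟨rfl, h.1, h.2.1⟩

theorem tapeAt_cases (L i : ℕ) :
    (i = 0 ∧ tapeAt (List.replicate L ()) i = Sym.lend) ∨
    (1 ≤ i ∧ i ≤ L ∧ tapeAt (List.replicate L ()) i = Sym.letter ()) ∨
    (L + 1 ≤ i ∧ tapeAt (List.replicate L ()) i = Sym.rend) := by
  rcases Nat.eq_zero_or_pos i with h | h
  · subst h
    exact Or.inl ⟨rfl, rfl⟩
  · by_cases h2 : i ≤ L
    · exact Or.inr (Or.inl ⟨h, h2, tapeAt_letter L i h h2⟩)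
    · refine Or.inr (Or.inr ⟨by omega, ?_⟩)
      obtain ⟨k, rfl⟩ : ∃ k, i = k + 1 := ⟨i - 1, by omega⟩
      have h3 : (List.replicate L ())[k]? = none := by
        rw [List.getElem?_replicate]
        have : ¬ k < L := by omega
        simp [this]
      simp [tapeAt, h3]

/-- The invariant of the reachable configurations on the tape of length `ℓ`. -/
def exInv (m ℓ : ℕ) (c : Fin (m + 2) × ℕ) : Prop :=
  (c.1.val < m ∧ c.2 ≤ ℓ + 1 ∧
    ((c.2 = 0 ∧ c.1.val = 0) ∨ ∃ x y : ℕ, c.2 = x * m + y * (m + 1) + c.1.val + 1)) ∨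
  (c.1.val = m ∧ c.2 ≤ ℓ + 1 ∧ ∃ x y : ℕ, c.2 = x * m + y * (m + 1) + m + 1) ∨
  (c.1.val = m + 1 ∧ ∃ x y : ℕ, ℓ = x * m + y * (m + 1))

theorem exInv_step (m ℓ : ℕ) (hm : 0 < m) {a b : Fin (m + 2) × ℕ} (ha : exInv m ℓ a)
    (hab : Step (exAut m) (List.replicate ℓ ()) a b) : exInv m ℓ b := by
  cases hab with
  | left q q' i h => exact absurd h (exTrans_no_left m _ _ _)
  | stay q q' i h =>
    obtain ⟨hs, hq, hq'⟩ := exTrans_stay m h
    have hi : ℓ + 1 ≤ i := by
      rcases tapeAt_cases ℓ i with ⟨-, h1⟩ | ⟨-, -, h1⟩ | ⟨h1, -⟩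
      · rw [h1] at hs; cases hs
      · rw [h1] at hs; cases hs
      · exact h1
    refine Or.inr (Or.inr ⟨hq', ?_⟩)
    rcases ha with ⟨-, h2, h3⟩ | ⟨h1, -⟩ | ⟨h1, -⟩
    · simp only at h2 h3
      rcases h3 with ⟨h4, -⟩ | ⟨x, y, h4⟩
      · omega
      · exact ⟨x, y, by omega⟩
    · simp only at h1; omega
    · simp only at h1; omega
  | right q q' i hle h =>
    simp only [List.length_replicate] at hle
    rcases tapeAt_cases ℓ i with ⟨h0, h1⟩ | ⟨h0, h0', h1⟩ | ⟨h0, -⟩
    · -- on the left endmarker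
      subst h0
      have h2 : q.val = 0 ∧ (q', Move.right) = (q, Move.right) := h
      have h3 : q' = q := by
        have := h2.2
        simp only [Prod.mk.injEq, and_true] at this
        exact this
      subst h3
      exact Or.inl ⟨by simp only; omega, by simp only; omega,
        Or.inr ⟨0, 0, by simp only; omega⟩⟩
    · -- on a letter
      have h2 : (q', Move.right) ∈ exTrans m q (Sym.letter ()) := by
        have := h
        simp only [exAut] at this
        rw [h1] at this
        exact this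
      have h3 : (q.val + 1 < m ∧ q'.val = q.val + 1) ∨
          (q.val + 1 = m ∧ (q'.val = 0 ∨ q'.val = m)) ∨ (q.val = m ∧ q'.val = 0) := h2.2
      rcases ha with ⟨h4, h5, h6⟩ | ⟨h4, h5, x, y, h6⟩ | ⟨h4, -⟩
      · simp only at h4 h5 h6
        rcases h6 with ⟨h7, -⟩ | ⟨x, y, h7⟩
        · omega
        · rcases h3 with ⟨h8, h9⟩ | ⟨h8, h9 | h9⟩ | ⟨h8, h9⟩
          · exact Or.inl ⟨by simp only; omega, by simp only; omega,
              Or.inr ⟨x, y, by simp only; omega⟩⟩
          · refine Or.inl ⟨by simp only; omega, by simp only; omega,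
              Or.inr ⟨x + 1, y, ?_⟩⟩
            have e : (x + 1) * m = x * m + m := by ring
            simp only
            omega
          · exact Or.inr (Or.inl ⟨h9, by simp only; omega, x, y, by simp only; omega⟩)
          · omega
      · simp only at h4 h5 h6
        rcases h3 with ⟨h8, h9⟩ | ⟨h8, h9 | h9⟩ | ⟨h8, h9⟩
        · omega
        · omega
        · omega
        · refine Or.inl ⟨by simp only; omega, by simp only; omega,
            Or.inr ⟨x, y + 1, ?_⟩⟩
          have e : (y + 1) * (m + 1) = y * (m + 1) + m + 1 := by ring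
          simp only
          omega
      · simp only at h4
        omega
    · omega

theorem ex_accepts_rep (m ℓ : ℕ) (hm : 0 < m)
    (h : (exAut m).Accepts (List.replicate ℓ ())) : ∃ x y : ℕ, ℓ = x * m + y * (m + 1) := by
  obtain ⟨q, i, hacc, hreach⟩ := h
  have hall : ∀ c, Relation.ReflTransGen (Step (exAut m) (List.replicate ℓ ()))
      ((exAut m).start, 0) c → exInv m ℓ c := by
    intro c hc
    induction hc with
    | refl =>
      refine Or.inl ⟨?_, by simp only; omega, Or.inl ⟨rfl, ?_⟩⟩
      · show ((0 : Fin (m + 2)) : ℕ) < m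
        simpa using hm
      · show ((0 : Fin (m + 2)) : ℕ) = 0
        simp
    | tail _ hbc ih => exact exInv_step m ℓ hm ih hbc
  have hacc' : q.val = m + 1 := hacc
  rcases hall _ hreach with ⟨h1, -⟩ | ⟨h1, -⟩ | ⟨-, h2⟩
  · simp only at h1; omega
  · simp only at h1; omega
  · exact h2

theorem ex_reach (m ℓ : ℕ) :
    ∀ n : ℕ, n ≤ ℓ → ∀ q : Fin (m + 2), q.val < m →
      (∃ x y : ℕ, n = x * m + y * (m + 1) + q.val) →
      Reach (exAut m) ℓ (q, n + 1) := by
  intro n
  induction n using Nat.strong_induction_on with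
  | _ n ih =>
    intro hn q hq ⟨x, y, hxy⟩
    by_cases hr : 1 ≤ q.val
    · -- the previous state is the counter `q - 1`
      have hn1 : 1 ≤ n := by omega
      have h1 := ih (n - 1) (by omega) (by omega) ⟨q.val - 1, by omega⟩ (by simp only; omega)
        ⟨x, y, by simp only; omega⟩
      have e : n - 1 + 1 = n := by omega
      rw [e] at h1
      refine Relation.ReflTransGen.tail h1 (Step.right _ q n (by simpa using hn) ?_)
      rw [tapeAt_letter ℓ n hn1 hn]
      exact ⟨rfl, Or.inl ⟨by simp only; omega, by simp only; omega⟩⟩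
    · have hq0 : q.val = 0 := by omega
      by_cases hn0 : n = 0
      · subst hn0
        have hq' : q = 0 := Fin.ext (by simpa using hq0)
        subst hq'
        exact Relation.ReflTransGen.single (Step.right _ _ 0 (Nat.zero_le _) ⟨hq0, rfl⟩)
      · by_cases hx : 1 ≤ x
        · obtain ⟨x', rfl⟩ : ∃ x', x = x' + 1 := ⟨x - 1, by omega⟩
          have e : (x' + 1) * m = x' * m + m := by ring
          have h1 := ih (n - 1) (by omega) (by omega) ⟨m - 1, by omega⟩ (by simp only; omega)
            ⟨x', y, by simp only; omega⟩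
          have e2 : n - 1 + 1 = n := by omega
          rw [e2] at h1
          refine Relation.ReflTransGen.tail h1 (Step.right _ q n (by simpa using hn) ?_)
          rw [tapeAt_letter ℓ n (by omega) hn]
          exact ⟨rfl, Or.inr (Or.inl ⟨by simp only; omega, Or.inl hq0⟩)⟩
        · have hx0 : x = 0 := by omega
          subst hx0
          have hy : 1 ≤ y := by
            rcases Nat.eq_zero_or_pos y with h | h
            · subst h; simp at hxy; omega
            · exact h
          obtain ⟨y', rfl⟩ : ∃ y', y = y' + 1 := ⟨y - 1, by omega⟩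
          have e : (y' + 1) * (m + 1) = y' * (m + 1) + m + 1 := by ring
          have h1 := ih (n - 2) (by omega) (by omega) ⟨m - 1, by omega⟩ (by simp only; omega)
            ⟨0, y', by simp only; omega⟩
          have e2 : n - 2 + 1 = n - 1 := by omega
          rw [e2] at h1
          have h2 : Reach (exAut m) ℓ (⟨m, by omega⟩, n) := by
            have e3 : n = n - 1 + 1 := by omega
            rw [e3]
            refine Relation.ReflTransGen.tail h1 (Step.right _ _ (n - 1) (by simp; omega) ?_)
            rw [tapeAt_letter ℓ (n - 1) (by omega) (by omega)]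
            exact ⟨rfl, Or.inr (Or.inl ⟨by simp only; omega, Or.inr rfl⟩)⟩
          refine Relation.ReflTransGen.tail h2 (Step.right _ q n (by simpa using hn) ?_)
          rw [tapeAt_letter ℓ n (by omega) hn]
          exact ⟨rfl, Or.inr (Or.inr ⟨rfl, hq0⟩)⟩

theorem ex_accepts_of_rep (m ℓ : ℕ) (hm : 0 < m) (h : ∃ x y : ℕ, ℓ = x * m + y * (m + 1)) :
    (exAut m).Accepts (List.replicate ℓ ()) := by
  obtain ⟨x, y, hxy⟩ := h
  have h1 := ex_reach m ℓ ℓ le_rfl 0 (by simpa using hm) ⟨x, y, by simpa using hxy⟩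
  refine ⟨⟨m + 1, by omega⟩, ℓ + 1, rfl, Relation.ReflTransGen.tail h1 (Step.stay _ _ _ ?_)⟩
  rw [tapeAt_rend]
  exact ⟨by simp, rfl, rfl⟩

/-- Every `k ≥ m * m - m` is of the form `x * m + y * (m + 1)`. -/
theorem ex_rep_of_large (m k : ℕ) (hm : 0 < m) (hk : m * m ≤ k + m) :
    ∃ x y : ℕ, k = x * m + y * (m + 1) := by
  have h1 : k % m < m := Nat.mod_lt k hm
  have h2 : m * (k / m) + k % m = k := Nat.div_add_mod k m
  have h3 : m - 1 ≤ k / m := by
    rw [Nat.le_div_iff_mul_le hm]
    obtain ⟨m', rfl⟩ : ∃ m', m = m' + 1 := ⟨m - 1, by omega⟩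
    simp only [Nat.add_sub_cancel]
    nlinarith
  obtain ⟨y, hy⟩ : ∃ y, y = k % m := ⟨_, rfl⟩
  rw [← hy] at h1 h2
  obtain ⟨x, hx⟩ : ∃ x, k / m = x + y := ⟨k / m - y, by omega⟩
  refine ⟨x, y, ?_⟩
  rw [hx] at h2
  rw [← h2]
  ring

/-- The number `m * m - m - 1` is not of the form `x * m + y * (m + 1)`. -/
theorem ex_gap (m : ℕ) : ¬ ∃ x y : ℕ, m * m = x * m + y * (m + 1) + m + 1 := by
  rintro ⟨x, y, h⟩
  have h1 : m ∣ y + 1 := by
    have h2 : m ∣ m * m := Dvd.intro _ rfl
    have h3 : m * m = (x + y + 1) * m + (y + 1) := by rw [h]; ring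
    rw [h3] at h2
    exact (Nat.dvd_add_right (Dvd.intro_left _ rfl)).1 h2
  obtain ⟨z, hz⟩ := h1
  have hz1 : 1 ≤ z := by
    rcases Nat.eq_zero_or_pos z with h0 | h0
    · subst h0; simp at hz
    · exact h0
  have h4 : m * m = x * m + (y + 1) * (m + 1) := by rw [h]; ring
  rw [hz] at h4
  nlinarith [Nat.zero_le (x * m), Nat.mul_le_mul_left m hz1]

end Vale.Agent.H92.P343
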