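import Vale.Agent.H92.P343.Defs

/-!
# P343: runs inside a block of equal letters

Abstract runs of a finite-state device on integer positions, where one step changes the
position by a displacement in `{-1, 0, 1}` that depends on the states only.  We prove that a
run that travels far to the right (or to the left) inside a window can be stretched by a
multiple of some period `d` between `1` and the number of states.
-/

namespace Vale.Agent.H92.P343

variable {Q : Type}

/-- One step inside the window `[lo, hi]` for the displacement relation `T`. -/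
def IStep (T : Q → Q → ℤ → Prop) (lo hi : ℤ) (a b : Q × ℤ) : Prop :=
  lo ≤ a.2 ∧ a.2 ≤ hi ∧ lo ≤ b.2 ∧ b.2 ≤ hi ∧ T a.1 b.1 (b.2 - a.2)

/-- Runs inside the window `[lo, hi]`. -/
def IR (T : Q → Q → ℤ → Prop) (lo hi : ℤ) : Q × ℤ → Q × ℤ → Prop :=
  Relation.ReflTransGen (IStep T lo hi)

theorem IR.refl {T : Q → Q → ℤ → Prop} {lo hi : ℤ} (a : Q × ℤ) : IR T lo hi a a :=
  Relation.ReflTransGen.refl

theorem IR.trans {T : Q → Q → ℤ → Prop} {lo hi : ℤ} {a b c : Q × ℤ}
    (h1 : IR T lo hi a b) (h2 : IR T lo hi b c) : IR T lo hi a c :=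
  Relation.ReflTransGen.trans h1 h2

theorem IR.mono {T : Q → Q → ℤ → Prop} {lo hi lo' hi' : ℤ} (h1 : lo' ≤ lo) (h2 : hi ≤ hi')
    {a b : Q × ℤ} (h : IR T lo hi a b) : IR T lo' hi' a b := by
  have hle : IStep T lo hi ≤ IStep T lo' hi' := by
    rintro a b ⟨h3, h4, h5, h6, h7⟩
    exact ⟨by omega, by omega, by omega, by omega, h7⟩
  exact Relation.ReflTransGen.mono hle _ _ h

theorem IR.shift {T : Q → Q → ℤ → Prop} {lo hi : ℤ} (c : ℤ) {a b : Q × ℤ}
    (h : IR T lo hi a b) : IR T (lo + c) (hi + c) (a.1, a.2 + c) (b.1, b.2 + c) := by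
  have hle : IStep T lo hi ≤
      Function.onFun (IStep T (lo + c) (hi + c)) (fun x : Q × ℤ => (x.1, x.2 + c)) := by
    rintro a b ⟨h3, h4, h5, h6, h7⟩
    have e : b.2 + c - (a.2 + c) = b.2 - a.2 := by ring
    refine ⟨?_, ?_, ?_, ?_, ?_⟩
    · show lo + c ≤ a.2 + c
      omega
    · show a.2 + c ≤ hi + c
      omega
    · show lo + c ≤ b.2 + c
      omega
    · show b.2 + c ≤ hi + c
      omega
    · show T a.1 b.1 (b.2 + c - (a.2 + c))
      rw [e]
      exact h7
  exact Relation.ReflTransGen.lift (fun x : Q × ℤ => (x.1, x.2 + c)) hle _ _ h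

/-- The mirrored displacement relation. -/
def Tr (T : Q → Q → ℤ → Prop) : Q → Q → ℤ → Prop := fun q q' d => T q q' (-d)

theorem IR.reflect {T : Q → Q → ℤ → Prop} {lo hi : ℤ} {a b : Q × ℤ}
    (h : IR T lo hi a b) : IR (Tr T) (-hi) (-lo) (a.1, -a.2) (b.1, -b.2) := by
  have hle : IStep T lo hi ≤
      Function.onFun (IStep (Tr T) (-hi) (-lo)) (fun x : Q × ℤ => (x.1, -x.2)) := by
    rintro a b ⟨h3, h4, h5, h6, h7⟩
    have e : -(-b.2 - -a.2) = b.2 - a.2 := by ring
    refine ⟨?_, ?_, ?_, ?_, ?_⟩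
    · show -hi ≤ -a.2
      omega
    · show -a.2 ≤ -lo
      omega
    · show -hi ≤ -b.2
      omega
    · show -b.2 ≤ -lo
      omega
    · show T a.1 b.1 (-(-b.2 - -a.2))
      rw [e]
      exact h7
  exact Relation.ReflTransGen.lift (fun x : Q × ℤ => (x.1, -x.2)) hle _ _ h

theorem Tr_Tr (T : Q → Q → ℤ → Prop) : Tr (Tr T) = T := by
  funext q q' d
  simp [Tr]

/-- A run from a position `≤ m` to a position `> m` passes through position `m + 1`. -/
theorem IR.crossing {T : Q → Q → ℤ → Prop} (hT : ∀ q q' d, T q q' d → d ≤ 1) {lo hi : ℤ}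
    {a b : Q × ℤ} (h : IR T lo hi a b) (m : ℤ) (ha : a.2 ≤ m) (hb : m < b.2) :
    ∃ r, IR T lo hi a (r, m + 1) ∧ IR T lo hi (r, m + 1) b := by
  revert ha
  induction h using Relation.ReflTransGen.head_induction_on with
  | refl => intro ha; omega
  | @head a c hac hcb ih =>
    intro ha
    by_cases hc : c.2 ≤ m
    · obtain ⟨r, h1, h2⟩ := ih hc
      exact ⟨r, Relation.ReflTransGen.head hac h1, h2⟩
    · have h1 : c.2 = m + 1 := by
        have := hT _ _ _ hac.2.2.2.2
        omega
      have h2 : (c.1, m + 1) = c := by rw [← h1]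
      refine ⟨c.1, ?_, ?_⟩
      · rw [h2]; exact Relation.ReflTransGen.single hac
      · rw [h2]; exact hcb

/-- A chain of crossing states at the positions `i, i + 1, ..., i + t`. -/
theorem IR.chain {T : Q → Q → ℤ → Prop} (hT : ∀ q q' d, T q q' d → d ≤ 1) {lo hi : ℤ}
    {p q : Q} {i j : ℤ} (h : IR T lo hi (p, i) (q, j)) (t : ℕ) (ht : i + t ≤ j) :
    ∃ f : ℕ → Q, f 0 = p ∧
      (∀ u : ℕ, u < t → IR T lo hi (f u, i + u) (f (u + 1), i + u + 1)) ∧
      IR T lo hi (f t, i + t) (q, j) := by
  induction t with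
  | zero =>
    refine ⟨fun _ => p, rfl, ?_, ?_⟩
    · intro u hu; omega
    · simpa using h
  | succ t ih =>
    obtain ⟨f, hf0, hseg, htail⟩ := ih (by push_cast at ht; omega)
    obtain ⟨r, h1, h2⟩ := IR.crossing hT htail (i + t) le_rfl (by push_cast at ht; omega)
    refine ⟨Function.update f (t + 1) r, ?_, ?_, ?_⟩
    · rw [Function.update_of_ne (by omega)]; exact hf0
    · intro u hu
      by_cases hut : u = t
      · subst hut
        rw [Function.update_self, Function.update_of_ne (by omega)]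
        exact h1
      · rw [Function.update_of_ne (by omega), Function.update_of_ne (by omega)]
        exact hseg u (by omega)
    · rw [Function.update_self]
      have e : i + ((t + 1 : ℕ) : ℤ) = i + t + 1 := by push_cast; ring
      rw [e]
      exact h2

theorem IR.chain_seg {T : Q → Q → ℤ → Prop} {lo hi : ℤ} {i : ℤ} {t : ℕ} {f : ℕ → Q}
    (hseg : ∀ u : ℕ, u < t → IR T lo hi (f u, i + u) (f (u + 1), i + u + 1))
    (u v : ℕ) (huv : u ≤ v) (hv : v ≤ t) : IR T lo hi (f u, i + u) (f v, i + v) := by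
  induction v, huv using Nat.le_induction with
  | base => exact IR.refl _
  | succ v huv ih =>
    have h1 := ih (by omega)
    have h2 := hseg v (by omega)
    have e : i + ((v + 1 : ℕ) : ℤ) = i + v + 1 := by push_cast; ring
    rw [e]
    exact h1.trans h2

/-- A loop that advances by `d ≥ 0` can be repeated. -/
theorem IR.loop {T : Q → Q → ℤ → Prop} {lo hi : ℤ} {r : Q} {x d : ℤ} (hd : 0 ≤ d)
    (h : IR T lo hi (r, x) (r, x + d)) (k : ℕ) : IR T lo (hi + k * d) (r, x) (r, x + k * d) := by
  induction k with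
  | zero => simpa using IR.refl (T := T) (lo := lo) (hi := hi) (r, x)
  | succ k ih =>
    have e : ((k + 1 : ℕ) : ℤ) * d = k * d + d := by push_cast; ring
    have hk : (0 : ℤ) ≤ k * d := mul_nonneg (by positivity) hd
    rw [e]
    have h1 : IR T lo (hi + (k * d + d)) (r, x) (r, x + k * d) :=
      IR.mono le_rfl (by omega) ih
    have h2 := IR.shift (k * d) h
    have h3 : IR T lo (hi + (k * d + d)) (r, x + k * d) (r, x + d + k * d) :=
      IR.mono (by omega) (by omega) h2
    have e2 : x + (k * d + d) = x + d + k * d := by ring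
    rw [e2]
    exact h1.trans h3

/-- Stretching a long rightward run: a run from position `i` to a position `j ≥ i + |Q|` can
be stretched by `k * d` for some `1 ≤ d ≤ |Q|` and all `k`. -/
theorem IR.pump [Fintype Q] {T : Q → Q → ℤ → Prop} (hT : ∀ q q' d, T q q' d → d ≤ 1)
    {lo hi : ℤ} {p q : Q} {i j : ℤ} (h : IR T lo hi (p, i) (q, j))
    (hij : i + Fintype.card Q ≤ j) :
    ∃ d : ℕ, 1 ≤ d ∧ d ≤ Fintype.card Q ∧
      ∀ k : ℕ, IR T lo (hi + k * d) (p, i) (q, j + k * d) := by
  obtain ⟨f, hf0, hseg, htail⟩ := IR.chain hT h (Fintype.card Q) hij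
  have hcard : Fintype.card Q < Fintype.card (Fin (Fintype.card Q + 1)) := by simp
  obtain ⟨u, v, huv, hfuv⟩ :=
    Fintype.exists_ne_map_eq_of_card_lt (fun u : Fin (Fintype.card Q + 1) => f u.val) hcard
  wlog hlt : u.val < v.val generalizing u v
  · have hne : u.val ≠ v.val := fun e => huv (Fin.ext e)
    exact this v u (Ne.symm huv) hfuv.symm (by omega)
  have hu := u.isLt
  have hv := v.isLt
  refine ⟨v.val - u.val, by omega, by omega, ?_⟩
  intro k
  have hd : ((v.val - u.val : ℕ) : ℤ) = (v.val : ℤ) - u.val := by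
    rw [Nat.cast_sub (le_of_lt hlt)]
  set d : ℤ := ((v.val - u.val : ℕ) : ℤ) with hd'
  have hd0 : 0 ≤ d := by positivity
  have hk : (0 : ℤ) ≤ k * d := mul_nonneg (by positivity) hd0
  -- prefix
  have hpre : IR T lo hi (p, i) (f u.val, i + u.val) := by
    have := IR.chain_seg hseg 0 u.val (Nat.zero_le _) (by omega)
    rw [hf0] at this
    simpa using this
  -- loop
  have hloop : IR T lo hi (f u.val, i + u.val) (f u.val, i + u.val + d) := by
    have := IR.chain_seg hseg u.val v.val (le_of_lt hlt) (by omega)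
    have e : i + (v.val : ℤ) = i + u.val + d := by rw [hd]; ring
    rw [e] at this
    rw [← hfuv] at this
    exact this
  -- suffix
  have hsuf : IR T lo hi (f u.val, i + u.val) (q, j) :=
    (IR.chain_seg hseg u.val (Fintype.card Q) (by omega) le_rfl).trans htail
  have h1 : IR T lo (hi + k * d) (p, i) (f u.val, i + u.val) := IR.mono le_rfl (by omega) hpre
  have h2 : IR T lo (hi + k * d) (f u.val, i + u.val) (f u.val, i + u.val + k * d) :=
    IR.loop hd0 hloop k
  have h3 : IR T lo (hi + k * d) (f u.val, i + u.val + k * d) (q, j + k * d) :=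
    IR.mono (by omega) le_rfl (IR.shift (k * d) hsuf)
  exact (h1.trans h2).trans h3

/-- Stretching a long leftward run: a run from position `i` to a position `j ≤ i - |Q|` can
be started `k * d` further to the right, for some `1 ≤ d ≤ |Q|` and all `k`. -/
theorem IR.pump_left [Fintype Q] {T : Q → Q → ℤ → Prop} (hT : ∀ q q' d, T q q' d → -1 ≤ d)
    {lo hi : ℤ} {p q : Q} {i j : ℤ} (h : IR T lo hi (p, i) (q, j))
    (hij : j + Fintype.card Q ≤ i) :
    ∃ d : ℕ, 1 ≤ d ∧ d ≤ Fintype.card Q ∧
      ∀ k : ℕ, IR T lo (hi + k * d) (p, i + k * d) (q, j) := by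
  have hT' : ∀ q q' d, Tr T q q' d → d ≤ 1 := by
    intro q q' d hd
    have := hT q q' (-d) hd
    omega
  have h1 := IR.reflect h
  obtain ⟨d, hd1, hd2, hk⟩ := IR.pump hT' h1 (by simp only; omega)
  refine ⟨d, hd1, hd2, ?_⟩
  intro k
  have h2 := IR.reflect (hk k)
  rw [Tr_Tr] at h2
  have h3 := IR.shift (k * d) h2
  simp only at h3
  have e1 : -(-lo + (k : ℤ) * d) + k * d = lo := by ring
  have e2 : - -hi + (k : ℤ) * d = hi + k * d := by ring
  have e3 : - -i + (k : ℤ) * d = i + k * d := by ring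
  have e4 : -(-j + (k : ℤ) * d) + k * d = j := by ring
  rw [e1, e2, e3, e4] at h3
  exact h3

end Vale.Agent.H92.P343
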