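import Vale.Agent.H92.P343.Interior

/-!
# P343: a pumping lemma for two-way nondeterministic automata over a one-letter alphabet

If a two-way nondeterministic automaton with `s` states accepts the word of length `ℓ > s`
over a one-letter alphabet, then it also accepts the word of length `ℓ + c` for every `c`
that is divisible by all numbers `1, ..., s`.
-/

namespace Vale.Agent.H92.P343

variable {Q : Type}

theorem tapeAt_letter (L i : ℕ) (h1 : 1 ≤ i) (h2 : i ≤ L) :
    tapeAt (List.replicate L ()) i = Sym.letter () := by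
  obtain ⟨k, rfl⟩ : ∃ k, i = k + 1 := ⟨i - 1, by omega⟩
  have h : (List.replicate L ())[k]? = some () := by
    rw [List.getElem?_replicate]
    have : k < L := by omega
    simp [this]
  simp [tapeAt, h]

theorem tapeAt_rend (L : ℕ) : tapeAt (List.replicate L ()) (L + 1) = Sym.rend := by
  simp [tapeAt]

/-- The displacement relation of the transitions on the letter. -/
def letterT (M : TwoNFA Unit Q) (q q' : Q) (d : ℤ) : Prop :=
  (d = -1 ∧ (q', Move.left) ∈ M.trans q (Sym.letter ())) ∨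
  (d = 0 ∧ (q', Move.stay) ∈ M.trans q (Sym.letter ())) ∨
  (d = 1 ∧ (q', Move.right) ∈ M.trans q (Sym.letter ()))

theorem letterT_le (M : TwoNFA Unit Q) : ∀ q q' d, letterT M q q' d → d ≤ 1 := by
  rintro q q' d (⟨h, -⟩ | ⟨h, -⟩ | ⟨h, -⟩) <;> omega

theorem letterT_ge (M : TwoNFA Unit Q) : ∀ q q' d, letterT M q q' d → -1 ≤ d := by
  rintro q q' d (⟨h, -⟩ | ⟨h, -⟩ | ⟨h, -⟩) <;> omega

theorem step_of_IStep (M : TwoNFA Unit Q) (L : ℕ) {a b : Q × ℤ}
    (h : IStep (letterT M) 1 L a b) :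
    Step M (List.replicate L ()) (a.1, a.2.toNat) (b.1, b.2.toNat) := by
  obtain ⟨q, x⟩ := a
  obtain ⟨q', y⟩ := b
  obtain ⟨h1, h2, h3, h4, h5⟩ := h
  simp only at h1 h2 h3 h4 h5 ⊢
  obtain ⟨i, rfl⟩ : ∃ i : ℕ, x = i := ⟨x.toNat, by omega⟩
  obtain ⟨j, rfl⟩ : ∃ j : ℕ, y = j := ⟨y.toNat, by omega⟩
  simp only [Int.toNat_natCast]
  have hi1 : 1 ≤ i := by omega
  have hi2 : i ≤ L := by omega
  rcases h5 with ⟨hd, hm⟩ | ⟨hd, hm⟩ | ⟨hd, hm⟩
  · obtain rfl : i = j + 1 := by omega
    refine Step.left q q' j ?_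
    rw [tapeAt_letter L (j + 1) hi1 hi2]
    exact hm
  · obtain rfl : i = j := by omega
    refine Step.stay q q' i ?_
    rw [tapeAt_letter L i hi1 hi2]
    exact hm
  · obtain rfl : j = i + 1 := by omega
    refine Step.right q q' i (by simpa using hi2) ?_
    rw [tapeAt_letter L i hi1 hi2]
    exact hm

theorem letterT_of_step (M : TwoNFA Unit Q) (L : ℕ) {q q' : Q} {i i' : ℕ}
    (h : Step M (List.replicate L ()) (q, i) (q', i')) (h1 : 1 ≤ i) (h2 : i ≤ L) :
    letterT M q q' ((i' : ℤ) - i) := by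
  cases h with
  | left _ _ _ hm =>
    rw [tapeAt_letter L _ h1 h2] at hm
    exact Or.inl ⟨by push_cast; ring, hm⟩
  | stay _ _ _ hm =>
    rw [tapeAt_letter L _ h1 h2] at hm
    exact Or.inr (Or.inl ⟨by ring, hm⟩)
  | right _ _ _ hle hm =>
    rw [tapeAt_letter L _ h1 h2] at hm
    exact Or.inr (Or.inr ⟨by push_cast; ring, hm⟩)

/-- The configurations reachable on the tape of length `L`. -/
def Reach (M : TwoNFA Unit Q) (L : ℕ) (x : Q × ℕ) : Prop :=
  Relation.ReflTransGen (Step M (List.replicate L ())) (M.start, 0) x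

theorem Reach.of_IR {M : TwoNFA Unit Q} {L : ℕ} {p q : Q} {i j : ℕ} {x y : ℤ}
    (h1 : Reach M L (p, i)) (h2 : IR (letterT M) 1 L (p, x) (q, y)) (hx : x = i) (hy : y = j) :
    Reach M L (q, j) := by
  subst hx hy
  have hle : IStep (letterT M) 1 L ≤
      Function.onFun (Step M (List.replicate L ())) (fun x : Q × ℤ => (x.1, x.2.toNat)) :=
    fun a b hab => step_of_IStep M L hab
  have h3 := Relation.ReflTransGen.lift (fun x : Q × ℤ => (x.1, x.2.toNat)) hle _ _ h2
  simp only [Function.onFun, Int.toNat_natCast] at h3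
  exact Relation.ReflTransGen.trans h1 h3

theorem Reach.exit_left {M : TwoNFA Unit Q} {L : ℕ} {q q' : Q} (hL : 1 ≤ L)
    (h1 : Reach M L (q, 1)) (hm : (q', Move.left) ∈ M.trans q (Sym.letter ())) :
    Reach M L (q', 0) := by
  refine Relation.ReflTransGen.tail h1 (Step.left q q' 0 ?_)
  rw [tapeAt_letter L (0 + 1) (by omega) (by omega)]
  exact hm

theorem Reach.exit_right {M : TwoNFA Unit Q} {L : ℕ} {q q' : Q} (hL : 1 ≤ L)
    (h1 : Reach M L (q, L)) (hm : (q', Move.right) ∈ M.trans q (Sym.letter ())) :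
    Reach M L (q', L + 1) := by
  refine Relation.ReflTransGen.tail h1 (Step.right q q' L (by simp) ?_)
  rw [tapeAt_letter L L hL le_rfl]
  exact hm

/-- The invariant relating the computations on the tapes of lengths `ℓ` and `ℓ + c`. -/
def LInv (M : TwoNFA Unit Q) (ℓ c : ℕ) (x : Q × ℕ) : Prop :=
  (x.2 = 0 ∧ Reach M (ℓ + c) (x.1, 0)) ∨
  (x.2 = ℓ + 1 ∧ Reach M (ℓ + c) (x.1, ℓ + c + 1)) ∨
  (1 ≤ x.2 ∧ x.2 ≤ ℓ ∧ ∃ p, Reach M (ℓ + c) (p, 1) ∧
      IR (letterT M) 1 ℓ (p, 1) (x.1, (x.2 : ℤ))) ∨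
  (1 ≤ x.2 ∧ x.2 ≤ ℓ ∧ ∃ p, Reach M (ℓ + c) (p, ℓ + c) ∧
      IR (letterT M) 1 ℓ (p, (ℓ : ℤ)) (x.1, (x.2 : ℤ)))

theorem LInv.step [Fintype Q] (M : TwoNFA Unit Q) (ℓ c : ℕ) (hℓ : Fintype.card Q + 1 ≤ ℓ)
    (hc : ∀ d, 1 ≤ d → d ≤ Fintype.card Q → d ∣ c) {a b : Q × ℕ}
    (ha : LInv M ℓ c a) (hab : Step M (List.replicate ℓ ()) a b) : LInv M ℓ c b := by
  obtain ⟨q, i⟩ := a
  obtain ⟨q', i'⟩ := b
  have hℓ1 : 1 ≤ ℓ := by omega
  have hL1 : 1 ≤ ℓ + c := by omega
  rcases ha with ⟨hi, hR⟩ | ⟨hi, hR⟩ | ⟨hi1, hi2, p, hR, hI⟩ | ⟨hi1, hi2, p, hR, hI⟩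
  · -- on the left endmarker
    simp only at hi hR
    subst hi
    cases hab with
    | stay _ _ _ hm =>
      exact Or.inl ⟨rfl, Relation.ReflTransGen.tail hR (Step.stay q q' 0 hm)⟩
    | right _ _ _ hle hm =>
      have hR' : Reach M (ℓ + c) (q', 1) :=
        Relation.ReflTransGen.tail hR (Step.right q q' 0 (Nat.zero_le _) hm)
      refine Or.inr (Or.inr (Or.inl ⟨by simp, by simpa using hℓ1, q', hR', ?_⟩))
      simpa using IR.refl (T := letterT M) (lo := 1) (hi := ℓ) (q', 1)
  · -- on the right endmarker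
    simp only at hi hR
    subst hi
    cases hab with
    | left _ _ _ hm =>
      rw [tapeAt_rend] at hm
      have hR' : Reach M (ℓ + c) (q', ℓ + c) := by
        refine Relation.ReflTransGen.tail hR (Step.left q q' (ℓ + c) ?_)
        rw [tapeAt_rend]
        exact hm
      exact Or.inr (Or.inr (Or.inr ⟨hℓ1, le_rfl, q', hR', IR.refl _⟩))
    | stay _ _ _ hm =>
      rw [tapeAt_rend] at hm
      refine Or.inr (Or.inl ⟨rfl, Relation.ReflTransGen.tail hR (Step.stay q q' (ℓ + c + 1) ?_)⟩)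
      rw [tapeAt_rend]
      exact hm
    | right _ _ _ hle hm => simp at hle
  · -- inside the word, entered from the left end
    simp only at hi1 hi2 hI
    have hT := letterT_of_step M ℓ hab hi1 hi2
    have hd1 := letterT_le M _ _ _ hT
    have hd2 := letterT_ge M _ _ _ hT
    by_cases hin : 1 ≤ i' ∧ i' ≤ ℓ
    · refine Or.inr (Or.inr (Or.inl ⟨hin.1, hin.2, p, hR, ?_⟩))
      refine Relation.ReflTransGen.tail hI ?_
      exact ⟨by simp only; omega, by simp only; omega, by simp only; omega,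
        by simp only; omega, hT⟩
    · by_cases h0 : i' = 0
      · subst h0
        have hi : i = 1 := by omega
        subst hi
        have hm : (q', Move.left) ∈ M.trans q (Sym.letter ()) := by
          rcases hT with ⟨-, hm⟩ | ⟨hd, -⟩ | ⟨hd, -⟩
          · exact hm
          · omega
          · omega
        have hq : Reach M (ℓ + c) (q, 1) :=
          hR.of_IR (IR.mono le_rfl (by push_cast; omega) hI) (by simp) (by simp)
        exact Or.inl ⟨rfl, hq.exit_left hL1 hm⟩
      · have hi' : i' = ℓ + 1 := by omega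
        subst hi'
        have hi : i = ℓ := by omega
        subst hi
        have hm : (q', Move.right) ∈ M.trans q (Sym.letter ()) := by
          rcases hT with ⟨hd, -⟩ | ⟨hd, -⟩ | ⟨-, hm⟩
          · omega
          · omega
          · exact hm
        obtain ⟨d, hd1, hd2, hk⟩ := IR.pump (letterT_le M) hI (by omega)
        obtain ⟨k, hk'⟩ := hc d hd1 hd2
        have hq : Reach M (i + c) (q, i + c) :=
          hR.of_IR (IR.mono le_rfl (by rw [hk']; push_cast; nlinarith) (hk k)) (by simp)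
            (by rw [hk']; push_cast; ring)
        exact Or.inr (Or.inl ⟨rfl, hq.exit_right hL1 hm⟩)
  · -- inside the word, entered from the right end
    simp only at hi1 hi2 hI
    have hT := letterT_of_step M ℓ hab hi1 hi2
    have hd1 := letterT_le M _ _ _ hT
    have hd2 := letterT_ge M _ _ _ hT
    by_cases hin : 1 ≤ i' ∧ i' ≤ ℓ
    · refine Or.inr (Or.inr (Or.inr ⟨hin.1, hin.2, p, hR, ?_⟩))
      refine Relation.ReflTransGen.tail hI ?_
      exact ⟨by simp only; omega, by simp only; omega, by simp only; omega,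
        by simp only; omega, hT⟩
    · by_cases h0 : i' = 0
      · subst h0
        have hi : i = 1 := by omega
        subst hi
        have hm : (q', Move.left) ∈ M.trans q (Sym.letter ()) := by
          rcases hT with ⟨-, hm⟩ | ⟨hd, -⟩ | ⟨hd, -⟩
          · exact hm
          · omega
          · omega
        obtain ⟨d, hd1, hd2, hk⟩ := IR.pump_left (letterT_ge M) hI (by push_cast; omega)
        obtain ⟨k, hk'⟩ := hc d hd1 hd2
        have hq : Reach M (ℓ + c) (q, 1) :=
          hR.of_IR (IR.mono le_rfl (by rw [hk']; push_cast; nlinarith) (hk k))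
            (by rw [hk']; push_cast; ring) (by simp)
        exact Or.inl ⟨rfl, hq.exit_left hL1 hm⟩
      · have hi' : i' = ℓ + 1 := by omega
        subst hi'
        have hi : i = ℓ := by omega
        subst hi
        have hm : (q', Move.right) ∈ M.trans q (Sym.letter ()) := by
          rcases hT with ⟨hd, -⟩ | ⟨hd, -⟩ | ⟨-, hm⟩
          · omega
          · omega
          · exact hm
        have hq : Reach M (i + c) (q, i + c) :=
          hR.of_IR (IR.mono (by omega) (by push_cast; omega) (IR.shift (c : ℤ) hI))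
            (by push_cast; ring) (by push_cast; ring)
        exact Or.inr (Or.inl ⟨rfl, hq.exit_right hL1 hm⟩)

/-- **Pumping lemma for two-way nondeterministic automata over a one-letter alphabet.** -/
theorem pumping [Fintype Q] (M : TwoNFA Unit Q) (ℓ c : ℕ) (hℓ : Fintype.card Q + 1 ≤ ℓ)
    (hc : ∀ d, 1 ≤ d → d ≤ Fintype.card Q → d ∣ c)
    (h : M.Accepts (List.replicate ℓ ())) : M.Accepts (List.replicate (ℓ + c) ()) := by
  obtain ⟨q, i, hacc, hreach⟩ := h
  have hall : ∀ x, Relation.ReflTransGen (Step M (List.replicate ℓ ())) (M.start, 0) x →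
      LInv M ℓ c x := by
    intro x hx
    induction hx with
    | refl => exact Or.inl ⟨rfl, Relation.ReflTransGen.refl⟩
    | tail _ hbc ih => exact LInv.step M ℓ c hℓ hc ih hbc
  rcases hall _ hreach with ⟨hi, hR⟩ | ⟨hi, hR⟩ | ⟨hi1, hi2, p, hR, hI⟩ | ⟨hi1, hi2, p, hR, hI⟩
  · exact ⟨q, 0, hacc, hR⟩
  · exact ⟨q, ℓ + c + 1, hacc, hR⟩
  · exact ⟨q, i, hacc, hR.of_IR (IR.mono le_rfl (by push_cast; omega) hI) (by simp) rfl⟩
  · exact ⟨q, i + c, hacc,
      hR.of_IR (IR.mono (by omega) (by push_cast; omega) (IR.shift (c : ℤ) hI))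
        (by push_cast; ring) (by push_cast; ring)⟩

end Vale.Agent.H92.P343
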